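import Mathlib

/-!
P011 (helper733): Cartan decomposition of matrices over a division ring with finitely many
ultrametric absolute values (with simultaneous approximation), by elementary matrices with entries
in the ring of integral elements, and the uniform conjugation invariance.
-/

set_option linter.unusedSectionVars false

namespace Vale.Agent.P011.H733

open Matrix

/-! ### elementary matrices over a subring -/

section EO

variable {R : Type*} [Ring R] (O : Subring R) {n m : Type*} [Fintype n] [DecidableEq n]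
  [Fintype m] [DecidableEq m]

/-- the elementary matrices with entries in `O` -/
def ES (n : Type*) [DecidableEq n] : Set (Matrix n n R) :=
  {M | ∃ i j c, i ≠ j ∧ c ∈ O ∧ M = 1 + Matrix.single i j c}

/-- the elementary group -/
def EO (n : Type*) [Fintype n] [DecidableEq n] : Submonoid (Matrix n n R) :=
  Submonoid.closure (ES O n)

variable {O}

lemma es_mem {i j : n} {c : R} (h : i ≠ j) (hc : c ∈ O) : 1 + Matrix.single i j c ∈ EO O n :=
  Submonoid.subset_closure ⟨i, j, c, h, hc, rfl⟩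

lemma sms_ne {i j k l : n} {c d : R} (h : j ≠ k) :
    Matrix.single i j c * Matrix.single k l d = 0 := by
  ext a b
  rw [Matrix.mul_apply, Matrix.zero_apply]
  refine Finset.sum_eq_zero fun x _ => ?_
  rw [Matrix.single_apply, Matrix.single_apply]
  by_cases hx : j = x
  · subst hx
    rw [if_neg (c := k = j ∧ l = b) (fun hc => h hc.1.symm), mul_zero]
  · rw [if_neg (c := i = a ∧ j = x) (fun hc => hx hc.2), zero_mul]

lemma es_inv {i j : n} {c : R} (h : i ≠ j) :
    (1 + Matrix.single i j c) * (1 + Matrix.single i j (-c)) = (1 : Matrix n n R) := by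
  rw [add_mul, mul_add, mul_add, one_mul, mul_one, one_mul,
    sms_ne h.symm, add_zero, add_assoc, ← Matrix.single_add,
    neg_add_cancel, Matrix.single_zero, add_zero]

/-- inverses -/
lemma EO_inv {k : Matrix n n R} (hk : k ∈ EO O n) :
    ∃ k' ∈ EO O n, k * k' = 1 ∧ k' * k = 1 := by
  induction hk using Submonoid.closure_induction with
  | mem x hx =>
    obtain ⟨i, j, c, h, hc, rfl⟩ := hx
    refine ⟨1 + Matrix.single i j (-c), es_mem h (O.neg_mem hc), es_inv h, ?_⟩
    have := es_inv (c := -c) h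
    rwa [neg_neg] at this
  | one => exact ⟨1, one_mem _, one_mul _, one_mul _⟩
  | mul x y _ _ hx hy =>
    obtain ⟨x', hx', h1, h2⟩ := hx
    obtain ⟨y', hy', h3, h4⟩ := hy
    refine ⟨y' * x', mul_mem hy' hx', ?_, ?_⟩
    · rw [mul_assoc, ← mul_assoc y, h3, one_mul, h1]
    · rw [mul_assoc, ← mul_assoc x', h2, one_mul, h4]

lemma row_mem {i0 : n} {f : m → n} {c : m → R} (hf : ∀ q, f q ≠ i0) (hc : ∀ q, c q ∈ O)
    (s : Finset m) : 1 + ∑ q ∈ s, Matrix.single i0 (f q) (c q) ∈ EO O n := by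
  induction s using Finset.induction_on with
  | empty => rw [Finset.sum_empty, add_zero]; exact one_mem _
  | insert q s hq ih =>
    have h1 : (1 + ∑ q ∈ s, Matrix.single i0 (f q) (c q)) * (1 + Matrix.single i0 (f q) (c q))
        = 1 + ∑ q ∈ insert q s, Matrix.single i0 (f q) (c q) := by
      have h0 : (∑ q ∈ s, Matrix.single i0 (f q) (c q)) * Matrix.single i0 (f q) (c q) = 0 := by
        rw [Finset.sum_mul]
        exact Finset.sum_eq_zero fun q' _ => sms_ne (hf q')
      rw [add_mul, one_mul, mul_add, mul_one, h0, Finset.sum_insert hq, add_zero]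
      abel
    rw [← h1]
    exact mul_mem ih (es_mem (hf q).symm (hc q))

lemma col_mem {i0 : n} {f : m → n} {c : m → R} (hf : ∀ q, f q ≠ i0) (hc : ∀ q, c q ∈ O)
    (s : Finset m) : 1 + ∑ q ∈ s, Matrix.single (f q) i0 (c q) ∈ EO O n := by
  induction s using Finset.induction_on with
  | empty => rw [Finset.sum_empty, add_zero]; exact one_mem _
  | insert q s hq ih =>
    have h1 : (1 + ∑ q ∈ s, Matrix.single (f q) i0 (c q)) * (1 + Matrix.single (f q) i0 (c q))
        = 1 + ∑ q ∈ insert q s, Matrix.single (f q) i0 (c q) := by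
      have h0 : (∑ q ∈ s, Matrix.single (f q) i0 (c q)) * Matrix.single (f q) i0 (c q) = 0 := by
        rw [Finset.sum_mul]
        exact Finset.sum_eq_zero fun q' _ => sms_ne (hf q).symm
      rw [add_mul, one_mul, mul_add, mul_one, h0, Finset.sum_insert hq, add_zero]
      abel
    rw [← h1]
    exact mul_mem ih (es_mem (hf q) (hc q))

/-- the upper block unipotent matrices -/
lemma up_mem {T : Matrix Unit n R} (hT : ∀ q, T () q ∈ O) :
    (fromBlocks 1 T 0 1 : Matrix (Unit ⊕ n) (Unit ⊕ n) R) ∈ EO O (Unit ⊕ n) := by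
  have h := row_mem (O := O) (n := Unit ⊕ n) (i0 := Sum.inl ()) (f := fun q : n => Sum.inr q)
    (c := fun q => T () q) (fun q => by simp) hT Finset.univ
  have h1 : (fromBlocks 1 T 0 1 : Matrix (Unit ⊕ n) (Unit ⊕ n) R)
      = 1 + ∑ q, Matrix.single (Sum.inl ()) (Sum.inr q) (T () q) := by
    ext i j
    rw [Matrix.add_apply, Matrix.sum_apply]
    rcases i with i | i <;> rcases j with j | j <;>
      simp [Matrix.single_apply, Matrix.one_apply, Matrix.fromBlocks]
  rw [h1]
  exact h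

/-- the lower block unipotent matrices -/
lemma lo_mem {S : Matrix n Unit R} (hS : ∀ q, S q () ∈ O) :
    (fromBlocks 1 0 S 1 : Matrix (Unit ⊕ n) (Unit ⊕ n) R) ∈ EO O (Unit ⊕ n) := by
  have h := col_mem (O := O) (n := Unit ⊕ n) (i0 := Sum.inl ()) (f := fun q : n => Sum.inr q)
    (c := fun q => S q ()) (fun q => by simp) hS Finset.univ
  have h1 : (fromBlocks 1 0 S 1 : Matrix (Unit ⊕ n) (Unit ⊕ n) R)
      = 1 + ∑ q, Matrix.single (Sum.inr q) (Sum.inl ()) (S q ()) := by
    ext i j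
    rw [Matrix.add_apply, Matrix.sum_apply]
    rcases i with i | i <;> rcases j with j | j <;>
      simp [Matrix.single_apply, Matrix.one_apply, Matrix.fromBlocks]
  rw [h1]
  exact h

/-- the smaller group -/
lemma blk_mem {k : Matrix n n R} (hk : k ∈ EO O n) :
    (fromBlocks 1 0 0 k : Matrix (Unit ⊕ n) (Unit ⊕ n) R) ∈ EO O (Unit ⊕ n) := by
  induction hk using Submonoid.closure_induction with
  | mem x hx =>
    obtain ⟨i, j, c, h, hc, rfl⟩ := hx
    have h1 : (fromBlocks 1 0 0 (1 + Matrix.single i j c) : Matrix (Unit ⊕ n) (Unit ⊕ n) R)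
        = 1 + Matrix.single (Sum.inr i) (Sum.inr j) c := by
      ext a b
      rw [Matrix.add_apply]
      rcases a with a | a <;> rcases b with b | b <;>
        simp [Matrix.single_apply, Matrix.one_apply, Matrix.fromBlocks]
    rw [h1]
    exact es_mem (by simpa using h) hc
  | one => rw [Matrix.fromBlocks_one]; exact one_mem _
  | mul x y _ _ hx hy =>
    have h1 : (fromBlocks 1 0 0 (x * y) : Matrix (Unit ⊕ n) (Unit ⊕ n) R)
        = fromBlocks 1 0 0 x * fromBlocks 1 0 0 y := by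
      rw [Matrix.fromBlocks_multiply]
      simp
    rw [h1]
    exact mul_mem hx hy

/-- renaming of the indices -/
lemma re_mem (e : m ≃ n) {k : Matrix n n R} (hk : k ∈ EO O n) :
    k.submatrix e e ∈ EO O m := by
  induction hk using Submonoid.closure_induction with
  | mem x hx =>
    obtain ⟨i, j, c, h, hc, rfl⟩ := hx
    have h1 : ((1 : Matrix n n R) + Matrix.single i j c).submatrix e e
        = 1 + Matrix.single (e.symm i) (e.symm j) c := by
      ext a b
      simp only [Matrix.submatrix_apply, Matrix.add_apply, Matrix.one_apply, Matrix.single_apply,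
        Equiv.symm_apply_eq, EmbeddingLike.apply_eq_iff_eq]
    rw [h1]
    exact es_mem (by simpa using h) hc
  | one => rw [Matrix.submatrix_one_equiv]; exact one_mem _
  | mul x y _ _ hx hy =>
    rw [← Matrix.submatrix_mul_equiv x y e e e]
    exact mul_mem hx hy

end EO

/-! ### ultrametric absolute values -/

section Abs

variable {D : Type*} [DivisionRing D] {ι : Type*} (ν : ι → AbsoluteValue D ℝ)

/-- ultrametric family -/
def Ultra : Prop := ∀ i x y, ν i (x + y) ≤ max (ν i x) (ν i y)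

/-- simultaneous approximation -/
def Approx : Prop := ∀ (x : ι → D) (ε : ℝ), 0 < ε → ∃ y, ∀ i, ν i (y - x i) < ε

variable {ν}

/-- the integral elements -/
def Oint (h : Ultra ν) : Subring D where
  carrier := {x | ∀ i, ν i x ≤ 1}
  mul_mem' := fun {x y} hx hy i => by
    rw [map_mul]
    exact mul_le_one₀ (hx i) ((ν i).nonneg y) (hy i)
  one_mem' := fun i => by rw [map_one]
  add_mem' := fun {x y} hx hy i => (h i x y).trans (max_le (hx i) (hy i))
  zero_mem' := fun i => by rw [map_zero]; exact zero_le_one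
  neg_mem' := fun {x} hx i => by
    rw [AbsoluteValue.map_neg]
    exact hx i

lemma mem_Oint {h : Ultra ν} {x : D} : x ∈ Oint h ↔ ∀ i, ν i x ≤ 1 := Iff.rfl

lemma ult_sum_lt (h : Ultra ν) {i : ι} {n : Type*} (s : Finset n) {f : n → D} {M : ℝ}
    (hM : 0 < M) (hf : ∀ p ∈ s, ν i (f p) < M) : ν i (∑ p ∈ s, f p) < M := by
  classical
  induction s using Finset.induction_on with
  | empty => rw [Finset.sum_empty, map_zero]; exact hM
  | insert p s hp ih =>
    rw [Finset.sum_insert hp]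
    refine (h i _ _).trans_lt (max_lt (hf p (Finset.mem_insert_self _ _)) (ih fun q hq => ?_))
    exact hf q (Finset.mem_insert_of_mem hq)

lemma ult_sum_le (h : Ultra ν) {i : ι} {n : Type*} (s : Finset n) {f : n → D} {M : ℝ}
    (hM : 0 ≤ M) (hf : ∀ p ∈ s, ν i (f p) ≤ M) : ν i (∑ p ∈ s, f p) ≤ M := by
  classical
  induction s using Finset.induction_on with
  | empty => rw [Finset.sum_empty, map_zero]; exact hM
  | insert p s hp ih =>
    rw [Finset.sum_insert hp]
    refine (h i _ _).trans (max_le (hf p (Finset.mem_insert_self _ _)) (ih fun q hq => ?_))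
    exact hf q (Finset.mem_insert_of_mem hq)

lemma ult_eq (h : Ultra ν) {i : ι} {x y : D} (hxy : ν i y < ν i x) : ν i (x + y) = ν i x := by
  refine le_antisymm ((h i x y).trans (max_le le_rfl hxy.le)) ?_
  by_contra hc
  push Not at hc
  have h1 := h i (x + y) (-y)
  rw [add_neg_cancel_right, AbsoluteValue.map_neg] at h1
  exact absurd h1 (not_le.2 (max_lt hc hxy))

/-- **mixing**: a maximal entry at all absolute values at once -/
lemma mix (h : Ultra ν) (ha : Approx ν) {n κ : Type*} [Fintype n] (x0 : κ → D)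
    (F : n → κ → D →+ D) (hF : ∀ i p q t, ν i (F p q t) = ν i t * ν i (F p q 1)) {M : ι → ℝ}
    (hM : ∀ i, 0 < M i) (h0 : ∀ i q, ν i (x0 q) ≤ M i) (h1 : ∀ i p q, ν i (F p q 1) ≤ M i)
    (hex : ∀ i, (∃ q, ν i (x0 q) = M i) ∨ ∃ p q, ν i (F p q 1) = M i) :
    ∃ t : n → D, (∀ i p, ν i (t p) ≤ 1) ∧ ∀ i, (∀ q, ν i (x0 q + ∑ p, F p q (t p)) ≤ M i) ∧
      ∃ q, ν i (x0 q + ∑ p, F p q (t p)) = M i := by
  classical
  -- the targets
  have he : ∀ i, ∃ e : n → D, (∀ p, ν i (e p) ≤ 1) ∧
      ∀ r : κ → D, (∀ q, ν i (r q) < M i) →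
        (∀ q, ν i (x0 q + ∑ p, F p q (e p) + r q) ≤ M i) ∧
        ∃ q, ν i (x0 q + ∑ p, F p q (e p) + r q) = M i := by
    intro i
    by_cases hP : ∃ q, ν i (x0 q) = M i
    · obtain ⟨q, hq⟩ := hP
      refine ⟨0, fun p => by rw [Pi.zero_apply, map_zero]; exact zero_le_one, fun r hr => ?_⟩
      have hs : ∀ q, ∑ p, F p q ((0 : n → D) p) = 0 := fun q =>
        Finset.sum_eq_zero fun p _ => by rw [Pi.zero_apply, map_zero]
      refine ⟨fun q => ?_, q, ?_⟩
      · rw [hs, add_zero]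
        exact (h i _ _).trans (max_le (h0 i q) (hr q).le)
      · rw [hs, add_zero, ult_eq h (by rw [hq]; exact hr q), hq]
    · obtain ⟨p0, q0, hpq⟩ := (hex i).resolve_left hP
      have hlt : ∀ q, ν i (x0 q) < M i := fun q =>
        lt_of_le_of_ne (h0 i q) fun hc => hP ⟨q, hc⟩
      refine ⟨Pi.single p0 1, fun p => ?_, fun r hr => ?_⟩
      · by_cases hp : p = p0
        · subst hp
          rw [Pi.single_eq_same, map_one]
        · rw [Pi.single_eq_of_ne hp, map_zero]
          exact zero_le_one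
      have hs : ∀ q, ∑ p, F p q ((Pi.single p0 1 : n → D) p) = F p0 q 1 := by
        intro q
        rw [Finset.sum_eq_single p0, Pi.single_eq_same]
        · intro p _ hp
          rw [Pi.single_eq_of_ne hp, map_zero]
        · intro hc
          exact absurd (Finset.mem_univ _) hc
      refine ⟨fun q => ?_, q0, ?_⟩
      · rw [hs]
        exact (h i _ _).trans (max_le ((h i _ _).trans (max_le (h0 i q) (h1 i p0 q))) (hr q).le)
      · rw [hs, add_comm (x0 q0), add_assoc, ult_eq h, hpq]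
        rw [hpq]
        exact (h i _ _).trans_lt (max_lt (hlt q0) (hr q0))
  choose e he1 he2 using he
  have ht : ∀ p, ∃ t, ∀ i, ν i (t - e i p) < 1 := fun p => ha (fun i => e i p) 1 one_pos
  choose t ht using ht
  refine ⟨t, fun i p => ?_, fun i => ?_⟩
  · have : t p = (t p - e i p) + e i p := by abel
    rw [this]
    exact (h i _ _).trans (max_le (ht p i).le (he1 i p))
  · have hr : ∀ q, ν i (∑ p, F p q (t p - e i p)) < M i := fun q =>
      ult_sum_lt h _ (hM i) fun p _ => by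
        rw [hF]
        calc ν i (t p - e i p) * ν i (F p q 1) ≤ ν i (t p - e i p) * M i :=
              mul_le_mul_of_nonneg_left (h1 i p q) ((ν i).nonneg _)
          _ < 1 * M i := mul_lt_mul_of_pos_right (ht p i) (hM i)
          _ = M i := one_mul _
    have hsum : ∀ q, x0 q + ∑ p, F p q (t p)
        = x0 q + ∑ p, F p q (e i p) + ∑ p, F p q (t p - e i p) := by
      intro q
      rw [add_assoc, ← Finset.sum_add_distrib]
      congr 1
      refine Finset.sum_congr rfl fun p _ => ?_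
      rw [← map_add]
      congr 1
      abel
    obtain ⟨g1, q, g2⟩ := he2 i (fun q => ∑ p, F p q (t p - e i p)) hr
    refine ⟨fun q => ?_, q, ?_⟩
    · rw [hsum]
      exact g1 q
    · rw [hsum]
      exact g2

end Abs

/-! ### the Cartan decomposition -/

section Car

variable {D : Type*} [DivisionRing D] {ι : Type*} {ν : ι → AbsoluteValue D ℝ} (h : Ultra ν)

/-- decomposable matrices -/
def Good {n : Type*} [Fintype n] [DecidableEq n] (g : Matrix n n D) : Prop :=
  ∃ k1 ∈ EO (Oint h) n, ∃ k2 ∈ EO (Oint h) n, ∃ δ : n → D, g = k1 * diagonal δ * k2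

variable {h} {n m : Type*} [Fintype n] [DecidableEq n] [Fintype m] [DecidableEq m]

lemma Good.left {g k : Matrix n n D} (hk : k ∈ EO (Oint h) n) (hg : Good h (k * g)) :
    Good h g := by
  obtain ⟨k', hk', h1, h2⟩ := EO_inv hk
  obtain ⟨k1, hk1, k2, hk2, δ, e⟩ := hg
  refine ⟨k' * k1, mul_mem hk' hk1, k2, hk2, δ, ?_⟩
  calc g = k' * (k * g) := by rw [← mul_assoc, h2, one_mul]
    _ = _ := by rw [e]; simp only [mul_assoc]

lemma Good.right {g k : Matrix n n D} (hk : k ∈ EO (Oint h) n) (hg : Good h (g * k)) :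
    Good h g := by
  obtain ⟨k', hk', h1, h2⟩ := EO_inv hk
  obtain ⟨k1, hk1, k2, hk2, δ, e⟩ := hg
  refine ⟨k1, hk1, k2 * k', mul_mem hk2 hk', δ, ?_⟩
  calc g = g * k * k' := by rw [mul_assoc, h1, mul_one]
    _ = _ := by rw [e]; simp only [mul_assoc]

lemma Good.blk {g : Matrix n n D} (hg : Good h g) (z : D) :
    Good h (fromBlocks (Matrix.of fun _ _ => z) 0 0 g : Matrix (Unit ⊕ n) (Unit ⊕ n) D) := by
  obtain ⟨k1, hk1, k2, hk2, δ, e⟩ := hg
  refine ⟨_, blk_mem hk1, _, blk_mem hk2, Sum.elim (fun _ => z) δ, ?_⟩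
  have h1 : (diagonal (Sum.elim (fun _ => z) δ) : Matrix (Unit ⊕ n) (Unit ⊕ n) D)
      = fromBlocks (Matrix.of fun _ _ => z) 0 0 (diagonal δ) := by
    ext i j
    rcases i with i | i <;> rcases j with j | j <;> simp [Matrix.diagonal_apply, Matrix.fromBlocks]
  rw [h1, Matrix.fromBlocks_multiply, Matrix.fromBlocks_multiply, e]
  simp

lemma Good.re {g : Matrix n n D} (e : m ≃ n) (hg : Good h g) : Good h (g.submatrix e e) := by
  obtain ⟨k1, hk1, k2, hk2, δ, he⟩ := hg
  refine ⟨_, re_mem e hk1, _, re_mem e hk2, δ ∘ e, ?_⟩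
  rw [he, ← Matrix.submatrix_mul_equiv (k1 * diagonal δ) k2 e e e,
    ← Matrix.submatrix_mul_equiv k1 (diagonal δ) e e e, Matrix.submatrix_diagonal_equiv]

lemma upL (T : Matrix Unit n D) (g : Matrix (Unit ⊕ n) (Unit ⊕ n) D) :
    (∀ q, ((fromBlocks 1 T 0 1 : Matrix (Unit ⊕ n) (Unit ⊕ n) D) * g) (Sum.inl ()) q
        = g (Sum.inl ()) q + ∑ p, T () p * g (Sum.inr p) q) ∧
      ∀ p q, ((fromBlocks 1 T 0 1 : Matrix (Unit ⊕ n) (Unit ⊕ n) D) * g) (Sum.inr p) q = g (Sum.inr p) q := by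
  constructor
  · intro q
    simp [Matrix.mul_apply, Fintype.sum_sum_type]
  · intro p q
    simp [Matrix.mul_apply, Fintype.sum_sum_type, Matrix.one_apply]

lemma loL (S : Matrix n Unit D) (g : Matrix (Unit ⊕ n) (Unit ⊕ n) D) :
    (∀ q, ((fromBlocks 1 0 S 1 : Matrix (Unit ⊕ n) (Unit ⊕ n) D) * g) (Sum.inl ()) q = g (Sum.inl ()) q) ∧
      ∀ p q, ((fromBlocks 1 0 S 1 : Matrix (Unit ⊕ n) (Unit ⊕ n) D) * g) (Sum.inr p) q
        = S p () * g (Sum.inl ()) q + g (Sum.inr p) q := by
  constructor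
  · intro q
    simp [Matrix.mul_apply, Fintype.sum_sum_type]
  · intro p q
    simp [Matrix.mul_apply, Fintype.sum_sum_type, Matrix.one_apply]

lemma loR (S : Matrix n Unit D) (g : Matrix (Unit ⊕ n) (Unit ⊕ n) D) :
    (∀ p, (g * (fromBlocks 1 0 S 1 : Matrix (Unit ⊕ n) (Unit ⊕ n) D)) p (Sum.inl ())
        = g p (Sum.inl ()) + ∑ q, g p (Sum.inr q) * S q ()) ∧
      ∀ p q, (g * (fromBlocks 1 0 S 1 : Matrix (Unit ⊕ n) (Unit ⊕ n) D)) p (Sum.inr q) = g p (Sum.inr q) := by
  constructor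
  · intro p
    simp [Matrix.mul_apply, Fintype.sum_sum_type]
  · intro p q
    simp [Matrix.mul_apply, Fintype.sum_sum_type, Matrix.one_apply]

lemma upR (T : Matrix Unit n D) (g : Matrix (Unit ⊕ n) (Unit ⊕ n) D) :
    (∀ p, (g * (fromBlocks 1 T 0 1 : Matrix (Unit ⊕ n) (Unit ⊕ n) D)) p (Sum.inl ()) = g p (Sum.inl ())) ∧
      ∀ p q, (g * (fromBlocks 1 T 0 1 : Matrix (Unit ⊕ n) (Unit ⊕ n) D)) p (Sum.inr q)
        = g p (Sum.inl ()) * T () q + g p (Sum.inr q) := by
  constructor
  · intro p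
    simp [Matrix.mul_apply, Fintype.sum_sum_type]
  · intro p q
    simp [Matrix.mul_apply, Fintype.sum_sum_type, Matrix.one_apply]

/-- one step -/
lemma car_step [Nonempty ι] (ha : Approx ν) (ih : ∀ g : Matrix n n D, Good h g)
    (g : Matrix (Unit ⊕ n) (Unit ⊕ n) D) : Good h g := by
  classical
  by_cases hg : g = 0
  · refine ⟨1, one_mem _, 1, one_mem _, 0, ?_⟩
    rw [hg]
    simp
  -- the maximal entries
  have hmax : ∀ i, ∃ pq : (Unit ⊕ n) × (Unit ⊕ n), ∀ p q, ν i (g p q) ≤ ν i (g pq.1 pq.2) := by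
    intro i
    obtain ⟨pq, hpq⟩ := Finite.exists_max fun pq : (Unit ⊕ n) × (Unit ⊕ n) => ν i (g pq.1 pq.2)
    exact ⟨pq, fun p q => hpq (p, q)⟩
  choose pq hpq using hmax
  obtain ⟨M, hMd⟩ : ∃ M : ι → ℝ, ∀ i, M i = ν i (g (pq i).1 (pq i).2) := ⟨_, fun _ => rfl⟩
  have hle : ∀ i p q, ν i (g p q) ≤ M i := fun i p q => by rw [hMd]; exact hpq i p q
  have hM : ∀ i, 0 < M i := by
    intro i
    obtain ⟨p, q, hne⟩ : ∃ p q, g p q ≠ 0 := by
      by_contra hc
      push Not at hc
      exact hg (Matrix.ext hc)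
    exact lt_of_lt_of_le ((ν i).pos hne) (hle i p q)
  -- the first row
  obtain ⟨t, ht1, ht2⟩ := mix h ha (κ := Unit ⊕ n) (n := n) (fun q => g (Sum.inl ()) q)
    (fun p q => AddMonoidHom.mulRight (g (Sum.inr p) q))
    (by intro i p q t; simp) (M := M) hM (fun i q => hle i _ _)
    (by intro i p q; simpa using hle i _ _)
    (by
      intro i
      have h1 := hMd i
      rcases hp : (pq i).1 with u | p
      · left
        refine ⟨(pq i).2, ?_⟩
        rw [h1, hp]
      · right
        refine ⟨p, (pq i).2, ?_⟩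
        rw [h1, hp]
        simp)
  obtain ⟨T, hT⟩ : ∃ T : Matrix Unit n D, T = Matrix.of fun _ p => t p := ⟨_, rfl⟩
  obtain ⟨g1, hg1⟩ : ∃ g1, g1 = fromBlocks 1 T 0 1 * g := ⟨_, rfl⟩
  obtain ⟨u1, u2⟩ := upL T g
  rw [← hg1] at u1 u2
  have v1 : ∀ i p q, ν i (g1 p q) ≤ M i := by
    intro i p q
    rcases p with p | p
    · rw [show (Sum.inl p : Unit ⊕ n) = Sum.inl () from rfl, u1]
      have := (ht2 i).1 q
      simpa [hT] using this
    · rw [u2]
      exact hle i _ _
  have v2 : ∀ i, ∃ q, ν i (g1 (Sum.inl ()) q) = M i := by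
    intro i
    obtain ⟨q, hq⟩ := (ht2 i).2
    refine ⟨q, ?_⟩
    rw [u1]
    simpa [hT] using hq
  refine Good.left (k := fromBlocks 1 T 0 1) (up_mem fun q => mem_Oint.2 fun i => ?_) ?_
  · rw [hT]
    exact ht1 i q
  rw [← hg1]
  -- the corner
  obtain ⟨s, hs1, hs2⟩ := mix h ha (κ := Unit) (n := n) (fun _ => g1 (Sum.inl ()) (Sum.inl ()))
    (fun q _ => AddMonoidHom.mulLeft (g1 (Sum.inl ()) (Sum.inr q)))
    (by intro i p q t; simp [mul_comm]) (M := M) hM (fun i q => v1 i _ _)
    (by intro i p q; simpa using v1 i _ _)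
    (by
      intro i
      obtain ⟨q, hq⟩ := v2 i
      rcases q with q | q
      · left
        exact ⟨(), hq⟩
      · right
        refine ⟨q, (), ?_⟩
        simpa using hq)
  obtain ⟨S, hS⟩ : ∃ S : Matrix n Unit D, S = Matrix.of fun q _ => s q := ⟨_, rfl⟩
  obtain ⟨g2, hg2⟩ : ∃ g2, g2 = g1 * fromBlocks 1 0 S 1 := ⟨_, rfl⟩
  obtain ⟨w1, w2⟩ := loR S g1
  rw [← hg2] at w1 w2
  have x1 : ∀ i p q, ν i (g2 p q) ≤ M i := by
    intro i p q
    rcases q with q | q
    · rw [show (Sum.inl q : Unit ⊕ n) = Sum.inl () from rfl, w1]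
      refine (h i _ _).trans (max_le (v1 i _ _) (ult_sum_le h _ (hM i).le fun q _ => ?_))
      rw [map_mul]
      calc ν i (g1 p (Sum.inr q)) * ν i (S q ()) ≤ M i * 1 :=
            mul_le_mul (v1 i _ _) (by rw [hS]; exact hs1 i q) ((ν i).nonneg _) (hM i).le
        _ = M i := mul_one _
    · rw [w2]
      exact v1 i _ _
  have x2 : ∀ i, ν i (g2 (Sum.inl ()) (Sum.inl ())) = M i := by
    intro i
    obtain ⟨q, hq⟩ := (hs2 i).2
    rw [w1]
    simpa [hS] using hq
  refine Good.right (k := fromBlocks 1 0 S 1) (lo_mem fun q => mem_Oint.2 fun i => ?_) ?_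
  · rw [hS]
    exact hs1 i q
  rw [← hg2]
  obtain ⟨z, hz⟩ : ∃ z, z = g2 (Sum.inl ()) (Sum.inl ()) := ⟨_, rfl⟩
  have hz0 : z ≠ 0 := by
    intro hc
    obtain ⟨i⟩ := ‹Nonempty ι›
    have h1 := x2 i
    rw [← hz, hc, map_zero] at h1
    exact absurd (hM i) (by rw [← h1]; exact lt_irrefl _)
  · obtain ⟨C, hC⟩ : ∃ C : Matrix n Unit D, C = Matrix.of fun p _ =>
        -(g2 (Sum.inr p) (Sum.inl ()) * z⁻¹) := ⟨_, rfl⟩
    obtain ⟨B, hB⟩ : ∃ B : Matrix Unit n D, B = Matrix.of fun _ q =>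
        -(z⁻¹ * g2 (Sum.inl ()) (Sum.inr q)) := ⟨_, rfl⟩
    have hzi : ∀ i x, ν i x ≤ M i → ν i x * ν i z⁻¹ ≤ 1 := by
      intro i x hx
      rw [map_inv₀, hz, x2 i, ← div_eq_mul_inv, div_le_one (hM i)]
      exact hx
    refine Good.left (k := fromBlocks 1 0 C 1) (lo_mem fun q => mem_Oint.2 fun i => ?_) ?_
    · rw [hC, Matrix.of_apply, AbsoluteValue.map_neg, map_mul]
      exact hzi i _ (x1 i _ _)
    refine Good.right (k := fromBlocks 1 B 0 1) (up_mem fun q => mem_Oint.2 fun i => ?_) ?_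
    · rw [hB, Matrix.of_apply, AbsoluteValue.map_neg, map_mul, mul_comm]
      exact hzi i _ (x1 i _ _)
    obtain ⟨g3, hg3⟩ : ∃ g3, g3 = fromBlocks 1 0 C 1 * g2 * fromBlocks 1 B 0 1 := ⟨_, rfl⟩
    obtain ⟨y1, y2⟩ := loL C g2
    obtain ⟨y3, y4⟩ := upR B (fromBlocks 1 0 C 1 * g2)
    rw [← hg3] at y3 y4
    rw [← hg3]
    have hform : g3 = fromBlocks (Matrix.of fun _ _ => z) 0 0 g3.toBlocks₂₂ := by
      ext p q
      rcases p with p | p <;> rcases q with q | q
      · rw [show (Sum.inl p : Unit ⊕ n) = Sum.inl () from rfl,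
          show (Sum.inl q : Unit ⊕ n) = Sum.inl () from rfl, y3, y1, ← hz]
        simp
      · rw [show (Sum.inl p : Unit ⊕ n) = Sum.inl () from rfl, y4, y1, y1, ← hz, hB,
          Matrix.of_apply]
        simp [hz0]
      · rw [show (Sum.inl q : Unit ⊕ n) = Sum.inl () from rfl, y3, y2, ← hz, hC,
          Matrix.of_apply]
        simp [hz0]
      · simp [Matrix.toBlocks₂₂]
    rw [hform]
    exact (ih _).blk z

lemma car_main [Nonempty ι] (ha : Approx ν) (n : ℕ) : ∀ g : Matrix (Fin n) (Fin n) D, Good h g := by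
  induction n with
  | zero =>
    intro g
    refine ⟨1, one_mem _, 1, one_mem _, 0, ?_⟩
    exact Subsingleton.elim _ _
  | succ n ih =>
    intro g
    let e : Unit ⊕ Fin n ≃ Fin (n + 1) :=
      (Equiv.sumComm _ _).trans ((Equiv.optionEquivSumPUnit (Fin n)).symm.trans
        (finSuccEquiv n).symm)
    have h1 := (car_step (h := h) ha ih (g.submatrix e e)).re e.symm
    rwa [Matrix.submatrix_submatrix, Equiv.self_comp_symm, Matrix.submatrix_id_id] at h1

/-- **the Cartan decomposition by elementary matrices with integral entries** -/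
theorem cartan (h : Ultra ν) [Nonempty ι] (ha : Approx ν) (g : Matrix n n D) :
    ∃ k1 ∈ EO (Oint h) n, ∃ k2 ∈ EO (Oint h) n, ∃ δ : n → D, g = k1 * diagonal δ * k2 := by
  have e := Fintype.equivFin n
  have h1 := (car_main (h := h) ha _ (g.submatrix e.symm e.symm)).re e
  rwa [Matrix.submatrix_submatrix, Equiv.symm_comp_self, Matrix.submatrix_id_id] at h1

/-- the middle factor of an invertible matrix -/
theorem cartan_unit (h : Ultra ν) [Nonempty ι] (ha : Approx ν) {g g' : Matrix n n D}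
    (h1 : g * g' = 1) :
    ∃ k1 ∈ EO (Oint h) n, ∃ k2 ∈ EO (Oint h) n, ∃ δ : n → D, (∀ i, δ i ≠ 0) ∧
      g = k1 * diagonal δ * k2 := by
  obtain ⟨k1, hk1, k2, hk2, δ, e⟩ := cartan h ha g
  obtain ⟨k1', -, a1, a2⟩ := EO_inv hk1
  obtain ⟨k2', -, b1, b2⟩ := EO_inv hk2
  refine ⟨k1, hk1, k2, hk2, δ, fun i hi => ?_, e⟩
  have h3 : diagonal δ * (k2 * g' * k1) = 1 := by
    calc diagonal δ * (k2 * g' * k1) = k1' * k1 * (diagonal δ * (k2 * g' * k1)) := by
          rw [a2, one_mul]
      _ = k1' * ((k1 * diagonal δ * k2) * g') * k1 := by simp only [mul_assoc]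
      _ = 1 := by rw [← e, h1, mul_one, a2]
  have h4 := congrFun (congrFun h3 i) i
  rw [Matrix.diagonal_mul, hi, zero_mul, Matrix.one_apply_eq] at h4
  exact zero_ne_one h4

/-- **uniform conjugation invariance** -/
theorem unif (h : Ultra ν) [Nonempty ι] (ha : Approx ν) {E : Type*} (B : Set (Matrix n n D))
    (Ψ : Matrix n n D → E)
    (hB : ∀ i j c, i ≠ j → c ∈ Oint h → ∀ X ∈ B,
      (1 + Matrix.single i j c) * X * (1 + Matrix.single i j (-c)) ∈ B ∧
        Ψ ((1 + Matrix.single i j c) * X * (1 + Matrix.single i j (-c))) = Ψ X)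
    (hd : ∀ δ : n → D, (∀ i, δ i ≠ 0) → ∀ X ∈ B, diagonal δ * X * diagonal (fun i => (δ i)⁻¹) ∈ B →
      Ψ (diagonal δ * X * diagonal (fun i => (δ i)⁻¹)) = Ψ X)
    {g g' : Matrix n n D} (h1 : g * g' = 1) (h2 : g' * g = 1) {X : Matrix n n D} (hX : X ∈ B)
    (hX' : g * X * g' ∈ B) : Ψ (g * X * g') = Ψ X := by
  -- the elementary group
  have key : ∀ k ∈ EO (Oint h) n, ∀ k', k * k' = 1 → k' * k = 1 → ∀ X ∈ B,
      k * X * k' ∈ B ∧ Ψ (k * X * k') = Ψ X := by
    intro k hk
    induction hk using Submonoid.closure_induction with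
    | mem x hx =>
      obtain ⟨i, j, c, hij, hc, rfl⟩ := hx
      intro k' e1 e2 X hX
      have : k' = 1 + Matrix.single i j (-c) := by
        calc k' = k' * ((1 + Matrix.single i j c) * (1 + Matrix.single i j (-c))) := by
              rw [es_inv hij, mul_one]
          _ = _ := by rw [← mul_assoc, e2, one_mul]
      rw [this]
      exact hB i j c hij hc X hX
    | one =>
      intro k' e1 _ X hX
      rw [one_mul] at e1
      rw [e1, one_mul, mul_one]
      exact ⟨hX, rfl⟩
    | mul x y hx hy ihx ihy =>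
      intro k' e1 e2 X hX
      obtain ⟨x', -, a1, a2⟩ := EO_inv hx
      obtain ⟨y', -, b1, b2⟩ := EO_inv hy
      have hk' : k' = y' * x' := by
        calc k' = k' * (x * (y * y') * x') := by rw [b1, mul_one, a1, mul_one]
          _ = k' * (x * y) * (y' * x') := by simp only [mul_assoc]
          _ = y' * x' := by rw [e2, one_mul]
      obtain ⟨c1, c2⟩ := ihy y' b1 b2 X hX
      obtain ⟨c3, c4⟩ := ihx x' a1 a2 _ c1
      have : x * y * X * k' = x * (y * X * y') * x' := by
        rw [hk']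
        simp only [mul_assoc]
      rw [this]
      exact ⟨c3, c4.trans c2⟩
  obtain ⟨k1, hk1, k2, hk2, δ, hδ, e⟩ := cartan_unit h ha h1
  obtain ⟨k1', hk1', a1, a2⟩ := EO_inv hk1
  obtain ⟨k2', hk2', b1, b2⟩ := EO_inv hk2
  have d1 : diagonal δ * diagonal (fun i => (δ i)⁻¹) = (1 : Matrix n n D) := by
    rw [Matrix.diagonal_mul_diagonal, ← Matrix.diagonal_one]
    congr 1
    ext i
    exact mul_inv_cancel₀ (hδ i)
  have d2 : diagonal (fun i => (δ i)⁻¹) * diagonal δ = (1 : Matrix n n D) := by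
    rw [Matrix.diagonal_mul_diagonal, ← Matrix.diagonal_one]
    congr 1
    ext i
    exact inv_mul_cancel₀ (hδ i)
  have hg' : g' = k2' * diagonal (fun i => (δ i)⁻¹) * k1' := by
    have h3 : g * (k2' * diagonal (fun i => (δ i)⁻¹) * k1') = 1 := by
      calc g * (k2' * diagonal (fun i => (δ i)⁻¹) * k1')
          = k1 * diagonal δ * (k2 * k2') * diagonal (fun i => (δ i)⁻¹) * k1' := by
            rw [e]; simp only [mul_assoc]
        _ = k1 * (diagonal δ * diagonal (fun i => (δ i)⁻¹)) * k1' := by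
            rw [b1, mul_one]; simp only [mul_assoc]
        _ = 1 := by rw [d1, mul_one, a1]
    calc g' = g' * (g * (k2' * diagonal (fun i => (δ i)⁻¹) * k1')) := by rw [h3, mul_one]
      _ = _ := by rw [← mul_assoc, h2, one_mul]
  obtain ⟨c1, c2⟩ := key k2 hk2 k2' b1 b2 X hX
  obtain ⟨Y, hY⟩ : ∃ Y, Y = diagonal δ * (k2 * X * k2') * diagonal (fun i => (δ i)⁻¹) := ⟨_, rfl⟩
  have hgX : g * X * g' = k1 * Y * k1' := by
    rw [hY, e, hg']
    simp only [mul_assoc]
  have hYB : Y ∈ B := by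
    obtain ⟨c3, -⟩ := key k1' hk1' k1 a2 a1 _ hX'
    have : k1' * (g * X * g') * k1 = Y := by
      rw [hgX]
      calc k1' * (k1 * Y * k1') * k1 = (k1' * k1) * Y * (k1' * k1) := by simp only [mul_assoc]
        _ = Y := by rw [a2, one_mul, mul_one]
    rwa [this] at c3
  have h5 := hd δ hδ _ c1 (by rw [← hY]; exact hYB)
  rw [← hY] at h5
  rw [hgX, (key k1 hk1 k1' a1 a2 Y hYB).2, h5, c2]

end Car

end Vale.Agent.P011.H733
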